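import Vale.Agent.P022D.Sel.Defs
import Vale.Agent.P022D.G.Defs

/-!
# P022, reducible case, block Sel: the residual hypothesis and the statements
-/

set_option linter.all false

noncomputable section

namespace Vale.Agent.P022F.Sel

open Vale.Agent.P022
open Vale.Agent.P027M.S (mx)

export Vale.Agent.P022D.Sel (M2 Ginf Stab IsDec Sc TanP Tan Aux CONG)

/-- `ρ` has open kernel, determinant one, eigenvalues in `F` and is upper triangular
(`H` plays no role) -/
structure Dh {F : Type} [Field F] (ρ : GQ →* GL (Fin 2) F) (H : Subgroup GQ) : Prop where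
  opn : IsOpen {g : GQ | ρ g = 1}
  det : ∀ g, (mx ρ g).det = 1
  eig : ∀ g, ∃ a b : F, (mx ρ g).trace = a + b ∧ (mx ρ g).det = a * b
  tri : ∀ g, mx ρ g 1 0 = 0

theorem Dh.spl {F : Type} [Field F] {ρ : GQ →* GL (Fin 2) F} {H : Subgroup GQ} (h : Dh ρ H)
    (g : GQ) : ∃ a : F, a ^ 2 - (mx ρ g).trace * a + (mx ρ g).det = 0 := by
  obtain ⟨a, b, h1, h2⟩ := h.eig g
  exact ⟨a, by rw [h1, h2]; ring⟩

/-- the cocycles for `ψ`, unramified outside `2` and `T`, which vanish at a complex conjugation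
and at a point where `ψ` is not one, vanish -/
def Ub {K : Type} [Field K] (ψ : GQ → K) (T : Finset ℕ) : Prop :=
  ∀ f : GQ → K, IsLocallyConstant f → (∀ g h, f (g * h) = f g + ψ g * f h) →
    (∀ l : ℕ, l.Prime → l ≠ 2 → l ∉ T → ∀ g, P022D.G.Inert l g → f g = 0) →
    (∃ c, IsConj c ∧ f c = 0) → ∀ g0, ψ g0 ≠ 1 → f g0 = 0 → ∀ g, f g = 0

end Vale.Agent.P022F.Sel
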